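import Vale.Agent.P334.H220.Main

set_option linter.all false

/-!
The final statement.
-/

namespace Vale.Agent.P334.Alg.One.H220

theorem size_le_log (n : ℕ) : Nat.size n ≤ Nat.log 2 n + 1 :=
  Nat.size_le.2 (Nat.lt_pow_succ_log_self (by norm_num) n)

theorem final :
    ∃ (A : Final.Input → List ℕ) (T : Polynomial ℕ) (B : Final.Inst → List ℕ) (K : ℕ),
      (∃ M : Turing.TM2ComputableInPolyTime Final.Input.code (Final.codeList Nat.bits) A,
        ∀ k, Finite (M.tm.Γ k)) ∧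
      (∃ M : Turing.TM2ComputableInPolyTime Final.Inst.code (Final.codeList Nat.bits) B,
        ∀ k, Finite (M.tm.Γ k)) ∧
      ∀ I : Final.Inst, I.Valid →
        (∀ r : Fin (T.eval I.code.length) → Bool, I.Feasible (A ⟨I, List.ofFn r⟩).toFinset) ∧
        (∀ S, I.Feasible S →
          (∑ r : Fin (T.eval I.code.length) → Bool, I.cost (A ⟨I, List.ofFn r⟩).toFinset) /
            2 ^ (T.eval I.code.length) ≤ (2 - 1 / 10 ^ 28) * I.cost S) ∧
        (∀ S, I.Feasible S →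
          Nat.card {r : Fin (T.eval I.code.length) → Bool //
            (2 - 1 / 10 ^ 28) * I.cost S < I.cost (A ⟨I, List.ofFn r⟩).toFinset} *
              2 ^ I.J.length ≤ 2 ^ (T.eval I.code.length)) ∧
        (B I).toFinset.Nonempty ∧ (B I).toFinset ⊆ I.F.toFinset ∧
        (B I).toFinset.card ≤ I.k + K * (Nat.log 2 I.J.length + 1) ∧
        ∀ (x : ℕ → ℕ → ℝ) (y : ℕ → ℝ),
          (∀ i ∈ I.F, ∀ j ∈ I.J, 0 ≤ x i j ∧ x i j ≤ y i) →
          (∀ j ∈ I.J, ∑ i ∈ I.F.toFinset, x i j = 1) → ∑ i ∈ I.F.toFinset, y i ≤ I.k →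
          (I.cost (B I).toFinset : ℝ) ≤ (2 - 1 / 10 ^ 28) *
            ∑ j ∈ I.J.toFinset, ∑ i ∈ I.F.toFinset, x i j * (I.dist i j : ℝ) := by
  obtain ⟨A, T, B, K, hA, hB, h⟩ := closed_lp
  refine ⟨A, T, B, K, hA, hB, fun I hI => ?_⟩
  obtain ⟨g1, g2, g3, g4, g5, g6, g7⟩ := h I hI
  refine ⟨g1, g2, g3, g4, g5, g6.trans ?_, fun x y h1 h2 h3 => ?_⟩
  · exact Nat.add_le_add_left (Nat.mul_le_mul_left _ (size_le_log _)) _
  · exact g7 x y ⟨fun i hi j hj => (h1 i hi j hj).1, fun i hi j hj => (h1 i hi j hj).2, h2, h3⟩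

end Vale.Agent.P334.Alg.One.H220
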