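import Vale.Agent.P334.Bdl.B7

set_option linter.all false

/-!
A deterministic algorithm with `k + O(log n)` facilities whose cost is bounded by the value of the
linear program.
-/

namespace Vale.Agent.P334.Alg.One.H220

open Vale.Agent.Lib.PolyTime

/-! ### Fractional solutions on lists -/

/-- Feasible fractional solutions. -/
structure FracN (J F : List ℕ) (k : ℕ) (x : ℕ → ℕ → ℝ) (y : ℕ → ℝ) : Prop where
  nonneg : ∀ i ∈ F, ∀ j ∈ J, 0 ≤ x i j
  le : ∀ i ∈ F, ∀ j ∈ J, x i j ≤ y i
  assign : ∀ j ∈ J, ∑ i ∈ F.toFinset, x i j = 1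
  budget : ∑ i ∈ F.toFinset, y i ≤ k

/-- Cost of a fractional solution. -/
noncomputable def fcost (D : ℕ → ℕ → ℕ) (J F : List ℕ) (x : ℕ → ℕ → ℝ) : ℝ :=
  ∑ j ∈ J.toFinset, ∑ i ∈ F.toFinset, x i j * D i j

/-- Mass of the client `j` within distance `R`. -/
noncomputable def mass (D : ℕ → ℕ → ℕ) (F : List ℕ) (x : ℕ → ℕ → ℝ) (R j : ℕ) : ℝ :=
  ∑ i ∈ F.toFinset.filter (fun i => D j i ≤ R), x i j

variable {D : ℕ → ℕ → ℕ} {l N : ℕ} {J F : List ℕ} {k : ℕ} {x : ℕ → ℕ → ℝ} {y : ℕ → ℝ}

theorem FracN.y_nonneg (h : FracN J F k x y) (hJ : J ≠ []) {i : ℕ} (hi : i ∈ F) : 0 ≤ y i := by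
  obtain ⟨j, hj⟩ := List.exists_mem_of_ne_nil J hJ
  exact (h.nonneg i hi j hj).trans (h.le i hi j hj)

theorem fcost_nonneg (h : FracN J F k x y) : 0 ≤ fcost D J F x := by
  refine Finset.sum_nonneg fun j hj => Finset.sum_nonneg fun i hi => ?_
  exact mul_nonneg (h.nonneg i (List.mem_toFinset.1 hi) j (List.mem_toFinset.1 hj))
    (Nat.cast_nonneg _)

/-- The scale. -/
theorem exists_scale (hD : MetOn D l N) (hJN : ∀ j ∈ J, j < N) (hFN : ∀ i ∈ F, i < N)
    (hx : FracN J F k x y) :
    ∃ R : ℕ, (∀ j ∈ J, (k : ℝ) / (k + 1) < mass D F x R j) ∧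
      (R = 0 ∨ ((R : ℝ) ≤ (k + 1) * fcost D J F x ∧ ∃ j ∈ J, ∃ i ∈ F, D j i = R)) := by
  classical
  have hk1 : (0 : ℝ) < k + 1 := by positivity
  have hkk : (k : ℝ) / (k + 1) < 1 := by
    rw [div_lt_one hk1]; linarith
  have hex : ∃ R : ℕ, ∀ j ∈ J, (k : ℝ) / (k + 1) < mass D F x R j := by
    refine ⟨l, fun j hj => ?_⟩
    have : F.toFinset.filter (fun i => D j i ≤ l) = F.toFinset := by
      refine Finset.filter_true_of_mem fun i hi => ?_
      exact hD.le j (hJN j hj) i (hFN i (List.mem_toFinset.1 hi))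
    rw [mass, this, hx.assign j hj]
    exact hkk
  obtain ⟨R, hR, hmin⟩ : ∃ R : ℕ, (∀ j ∈ J, (k : ℝ) / (k + 1) < mass D F x R j) ∧
      ∀ r < R, ¬ ∀ j ∈ J, (k : ℝ) / (k + 1) < mass D F x r j :=
    ⟨Nat.find hex, Nat.find_spec hex, fun r hr => Nat.find_min hex hr⟩
  refine ⟨R, hR, ?_⟩
  rcases Nat.eq_zero_or_pos R with h0 | h0
  · exact Or.inl h0
  · right
    have h1 := hmin (R - 1) (by omega)
    push Not at h1
    obtain ⟨j, hj, hjm⟩ := h1
    have hjR := hR j hj
    have hjF : j ∈ J.toFinset := List.mem_toFinset.2 hj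
    constructor
    · -- mass at distance at least `R`
      have e1 : ∑ i ∈ F.toFinset.filter (fun i => ¬ D j i ≤ R - 1), x i j =
          1 - mass D F x (R - 1) j := by
        have := Finset.sum_filter_add_sum_filter_not F.toFinset (fun i => D j i ≤ R - 1)
          (fun i => x i j)
        rw [hx.assign j hj] at this
        rw [mass]
        linarith
      have e2 : 1 / ((k : ℝ) + 1) ≤ 1 - mass D F x (R - 1) j := by
        have : 1 / ((k : ℝ) + 1) = 1 - k / (k + 1) := by field_simp; ring
        rw [this]; linarith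
      have e3 : (R : ℝ) * ∑ i ∈ F.toFinset.filter (fun i => ¬ D j i ≤ R - 1), x i j ≤
          ∑ i ∈ F.toFinset, x i j * D i j := by
        rw [Finset.mul_sum]
        refine (Finset.sum_le_sum (f := fun i => (R : ℝ) * x i j) (g := fun i => x i j * D i j)
          fun i hi => ?_).trans ?_
        · obtain ⟨hi1, hi2⟩ := Finset.mem_filter.1 hi
          have hiF := List.mem_toFinset.1 hi1
          have h3 : R ≤ D i j := by
            rw [hD.symm i (hFN i hiF) j (hJN j hj)]
            omega
          have h4 : (R : ℝ) ≤ D i j := by exact_mod_cast h3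
          rw [mul_comm]
          exact mul_le_mul_of_nonneg_left h4 (hx.nonneg i hiF j hj)
        · refine Finset.sum_le_sum_of_subset_of_nonneg (Finset.filter_subset _ _) fun i hi _ => ?_
          exact mul_nonneg (hx.nonneg i (List.mem_toFinset.1 hi) j hj) (Nat.cast_nonneg _)
      have e4 : ∑ i ∈ F.toFinset, x i j * D i j ≤ fcost D J F x := by
        refine Finset.single_le_sum (f := fun j => ∑ i ∈ F.toFinset, x i j * (D i j : ℝ))
          (fun j' hj' => Finset.sum_nonneg fun i hi => ?_) hjF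
        exact mul_nonneg (hx.nonneg i (List.mem_toFinset.1 hi) j' (List.mem_toFinset.1 hj'))
          (Nat.cast_nonneg _)
      have e5 : (R : ℝ) * (1 / ((k : ℝ) + 1)) ≤ fcost D J F x := by
        refine le_trans ?_ (e3.trans e4)
        refine mul_le_mul_of_nonneg_left ?_ (Nat.cast_nonneg _)
        rw [e1]; exact e2
      rw [mul_one_div, div_le_iff₀ hk1] at e5
      linarith
    · -- the value is attained
      by_contra hcon
      push Not at hcon
      have e1 : F.toFinset.filter (fun i => D j i ≤ R) =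
          F.toFinset.filter (fun i => D j i ≤ R - 1) := by
        refine Finset.filter_congr fun i hi => ?_
        have := hcon j hj i (List.mem_toFinset.1 hi)
        constructor <;> intro h2 <;> omega
      have e2 : mass D F x R j = mass D F x (R - 1) j := by
        rw [mass, mass, e1]
      linarith

/-- The fallback relative to a fractional solution. -/
theorem fallback_frac {R : ℕ} (h : MetOn D l N) (hJ0 : J ≠ []) (hJ : ∀ j ∈ J, j < N)
    (hF : ∀ i ∈ F, i < N) (hx : FracN J F k x y)
    (hm : ∀ j ∈ J, (k : ℝ) / (k + 1) < mass D F x R j) :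
    Feas F k (fallback D J F R) ∧ cst D l J (fallback D J F R) ≤ 3 * R * J.length := by
  classical
  have hk1 : (0 : ℝ) < k + 1 := by positivity
  have hnear : ∀ j ∈ J, ∃ i ∈ F, D j i ≤ R := by
    intro j hj
    by_contra hcon
    push Not at hcon
    have h1 : F.toFinset.filter (fun i => D j i ≤ R) = ∅ := by
      refine Finset.filter_false_of_mem fun i hi => ?_
      have := hcon i (List.mem_toFinset.1 hi)
      omega
    have h2 := hm j hj
    rw [mass, h1, Finset.sum_empty] at h2
    have : (0 : ℝ) ≤ k / (k + 1) := by positivity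
    linarith
  have hF0 : F ≠ [] := by
    obtain ⟨j, hj⟩ := List.exists_mem_of_ne_nil J hJ0
    obtain ⟨i, hi, -⟩ := hnear j hj
    exact List.ne_nil_of_mem hi
  have hTR : ∀ j ∈ J, mins D l j F ≤ R := by
    intro j hj
    obtain ⟨i, hi, h1⟩ := hnear j hj
    exact (fb_mins_le hi).trans h1
  have key : ∀ m, FbInv D J F R ((fbStep D F R)^[m] (J, [])) ∧
      ((fbStep D F R)^[m] (J, [])).1.length ≤ J.length - m := by
    intro m
    induction m with
    | zero =>
      refine ⟨⟨fun j hj => hj, by simp, fun j hj => Or.inl hj, ⟨[], by simp, by simp, by simp,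
        by simp only [List.not_mem_nil, Function.iterate_zero, id_eq, IsEmpty.forall_iff,
          implies_true]⟩⟩, by simp⟩
    | succ m ih =>
      rw [Function.iterate_succ_apply']
      obtain ⟨h1, h2⟩ := fbInv_step h hJ hF hF0 (fun t ht => ht) hTR ih.1
      exact ⟨h1, by have := ih.2; omega⟩
  obtain ⟨hI, hlen⟩ := key J.length
  rw [Nat.sub_self] at hlen
  have hnil : ((fbStep D F R)^[J.length] (J, [])).1 = [] := List.length_eq_zero_iff.1 (by omega)
  have hcov : ∀ j ∈ J, ∃ i ∈ fallback D J F R, D j i ≤ 3 * R := by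
    intro j hj
    rcases hI.cov j hj with h1 | h1
    · rw [hnil] at h1
      simp at h1
    · exact h1
  refine ⟨⟨?_, hI.fac, ?_⟩, ?_⟩
  · obtain ⟨j, hj⟩ := List.exists_mem_of_ne_nil J hJ0
    obtain ⟨i, hi, -⟩ := hcov j hj
    exact List.ne_nil_of_mem hi
  · obtain ⟨P, hP1, hP2, hP3, -⟩ := hI.picks
    have hnd : P.Nodup := by
      refine List.Pairwise.imp_of_mem ?_ hP3
      intro p q hp hq hpq he
      subst he
      have := (h.zero p (hJ p (hP2 p hp)) p (hJ p (hP2 p hp))).2 rfl
      omega
    have hsep : ∀ p ∈ P, ∀ q ∈ P, p ≠ q → 2 * R < D p q := by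
      intro p hp q hq hpq
      have hP4 : P.Pairwise (fun a b : ℕ => 2 * R < D a b ∧ 2 * R < D b a) := by
        refine List.Pairwise.imp_of_mem ?_ hP3
        intro a b ha hb hab
        refine ⟨?_, hab⟩
        rwa [h.symm b (hJ b (hP2 b hb)) a (hJ a (hP2 a ha))] at hab
      haveI : Std.Symm (fun a b : ℕ => 2 * R < D a b ∧ 2 * R < D b a) :=
        ⟨fun a b h' => ⟨h'.2, h'.1⟩⟩
      exact (hP4.forall hp hq hpq).1
    set B : ℕ → Finset ℕ := fun p => F.toFinset.filter (fun i => D p i ≤ R) with hB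
    have hdisj : ∀ p ∈ P.toFinset, ∀ q ∈ P.toFinset, p ≠ q → Disjoint (B p) (B q) := by
      intro p hp q hq hpq
      rw [List.mem_toFinset] at hp hq
      rw [Finset.disjoint_left]
      intro i hi1 hi2
      obtain ⟨hi1, h1⟩ := Finset.mem_filter.1 hi1
      obtain ⟨-, h2⟩ := Finset.mem_filter.1 hi2
      have hiN := hF i (List.mem_toFinset.1 hi1)
      have hpN := hJ p (hP2 p hp)
      have hqN := hJ q (hP2 q hq)
      have h3 := h.tri p hpN i hiN q hqN
      rw [h.symm i hiN q hqN] at h3
      have h4 := hsep p hp q hq hpq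
      omega
    have hsum : ∑ p ∈ P.toFinset, mass D F x R p ≤ k := by
      calc ∑ p ∈ P.toFinset, mass D F x R p ≤ ∑ p ∈ P.toFinset, ∑ i ∈ B p, y i := by
            refine Finset.sum_le_sum fun p hp => Finset.sum_le_sum fun i hi => ?_
            rw [List.mem_toFinset] at hp
            exact hx.le i (List.mem_toFinset.1 (Finset.mem_filter.1 hi).1) p (hP2 p hp)
        _ = ∑ i ∈ P.toFinset.biUnion B, y i := by
            rw [Finset.sum_biUnion]
            intro p hp q hq hpq
            exact hdisj p hp q hq hpq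
        _ ≤ ∑ i ∈ F.toFinset, y i := by
            refine Finset.sum_le_sum_of_subset_of_nonneg ?_ fun i hi _ =>
              hx.y_nonneg hJ0 (List.mem_toFinset.1 hi)
            intro i hi
            obtain ⟨p, -, hp⟩ := Finset.mem_biUnion.1 hi
            exact (Finset.mem_filter.1 hp).1
        _ ≤ k := hx.budget
    have hcard : P.toFinset.card = P.length := List.toFinset_card_of_nodup hnd
    show ((fbStep D F R)^[J.length] (J, [])).2.length ≤ k
    rw [← hP1]
    by_contra hcon
    have hne : P.toFinset.Nonempty := by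
      rw [← Finset.card_pos, hcard]; omega
    have h1 : (P.length : ℝ) * ((k : ℝ) / (k + 1)) < ∑ p ∈ P.toFinset, mass D F x R p := by
      calc (P.length : ℝ) * ((k : ℝ) / (k + 1)) = ∑ p ∈ P.toFinset, (k : ℝ) / (k + 1) := by
            rw [Finset.sum_const, hcard, nsmul_eq_mul]
        _ < _ := Finset.sum_lt_sum_of_nonempty hne fun p hp =>
            hm p (hP2 p (List.mem_toFinset.1 hp))
    have h2 : ((k : ℝ) + 1) ≤ P.length := by
      have : k + 1 ≤ P.length := by omega
      exact_mod_cast this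
    have h3 : ((k : ℝ) + 1) * ((k : ℝ) / (k + 1)) = k := by field_simp
    have h4 : ((k : ℝ) + 1) * ((k : ℝ) / (k + 1)) ≤ (P.length : ℝ) * ((k : ℝ) / (k + 1)) :=
      mul_le_mul_of_nonneg_right h2 (by positivity)
    linarith
  · unfold cst
    have : ∀ J' : List ℕ, (∀ j ∈ J', j ∈ J) →
        (J'.map (fun j => mins D l j (fallback D J F R))).sum ≤ 3 * R * J'.length := by
      intro J'
      induction J' with
      | nil => intro _; simp
      | cons j J' ih =>
        intro hsub
        rw [List.map_cons, List.sum_cons, List.length_cons, mul_add, mul_one]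
        obtain ⟨i, hi, h1⟩ := hcov j (hsub j List.mem_cons_self)
        have h2 := fb_mins_le (D := D) (l := l) (v := j) hi
        have h3 := ih fun j' hj' => hsub j' (List.mem_cons_of_mem _ hj')
        omega
    exact this J fun j hj => hj

/-! ### The scaled metric -/

theorem scal_entry {R U cap nu i j : ℕ} (hi : i < N) (hj : j < N) (hR : 0 < R) :
    R * scal D N R U cap nu i j ≤ U * (nu * D i j + R) := by
  by_cases hij : i = j
  · subst hij
    rw [scal_self]
    simp
  · rw [scal_in hij hi hj]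
    have hc : R * ((nu * D i j + (R - 1)) / R) ≤ nu * D i j + (R - 1) := Nat.mul_div_le _ _
    calc R * (U * min cap ((nu * D i j + (R - 1)) / R))
        ≤ R * (U * ((nu * D i j + (R - 1)) / R)) :=
          Nat.mul_le_mul_left _ (Nat.mul_le_mul_left _ (min_le_right _ _))
      _ = U * (R * ((nu * D i j + (R - 1)) / R)) := by ring
      _ ≤ U * (nu * D i j + (R - 1)) := Nat.mul_le_mul_left _ hc
      _ ≤ U * (nu * D i j + R) := Nat.mul_le_mul_left _ (by omega)

theorem fcost_scal {R U cap nu : ℕ} (hJN : ∀ j ∈ J, j < N) (hFN : ∀ i ∈ F, i < N)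
    (hJ : J.Nodup) (hR : 0 < R) (hx : FracN J F k x y) :
    (R : ℝ) * fcost (scal D N R U cap nu) J F x ≤ U * (nu * fcost D J F x + J.length * R) := by
  have h1 : ∀ j ∈ J.toFinset, ∀ i ∈ F.toFinset,
      (R : ℝ) * (x i j * (scal D N R U cap nu i j : ℕ)) ≤
        U * nu * (x i j * D i j) + U * R * x i j := by
    intro j hj i hi
    rw [List.mem_toFinset] at hi hj
    have h2 := scal_entry (D := D) (U := U) (cap := cap) (nu := nu) (hFN i hi) (hJN j hj) hR
    have h3 : (R : ℝ) * (scal D N R U cap nu i j : ℕ) ≤ U * (nu * D i j + R) := by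
      exact_mod_cast h2
    have h4 := mul_le_mul_of_nonneg_left h3 (hx.nonneg i hi j hj)
    linarith
  unfold fcost
  rw [Finset.mul_sum]
  calc ∑ j ∈ J.toFinset, (R : ℝ) * ∑ i ∈ F.toFinset, x i j * (scal D N R U cap nu i j : ℕ)
      ≤ ∑ j ∈ J.toFinset, ∑ i ∈ F.toFinset, (U * nu * (x i j * D i j) + U * R * x i j) := by
        refine Finset.sum_le_sum fun j hj => ?_
        rw [Finset.mul_sum]
        exact Finset.sum_le_sum fun i hi => h1 j hj i hi
    _ = ∑ j ∈ J.toFinset, (U * nu * ∑ i ∈ F.toFinset, x i j * D i j + U * R) := by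
        refine Finset.sum_congr rfl fun j hj => ?_
        rw [Finset.sum_add_distrib, ← Finset.mul_sum, ← Finset.mul_sum,
          hx.assign j (List.mem_toFinset.1 hj), mul_one]
    _ = _ := by
        rw [Finset.sum_add_distrib, ← Finset.mul_sum, Finset.sum_const,
          List.toFinset_card_of_nodup hJ, nsmul_eq_mul]
        ring

/-! ### The specification of the subroutine, relative to the linear program -/

/-- Specification of the pseudo-approximation, relative to the linear program. -/
def LPSpec (c3 : ℝ) (K3 : ℕ) (Us : ℕ → ℕ → ℕ)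
    (pseudo : (ℕ → ℕ → ℕ) → ℕ → List ℕ → List ℕ → ℕ → List ℕ) : Prop :=
  ∀ d l J F k, Setting d l J F → 1 ≤ k → k ≤ F.length →
    (∀ a b, Us J.length F.length ∣ d a b) →
    ∀ x y, FracN J F k x y →
      (cst d l J (pseudo d l J F k) : ℝ) ≤ c3 * fcost d J F x

theorem lp_of_frac {d : ℕ → ℕ → ℕ} {l : ℕ} (hset : Setting d l J F) {m : MetricSpace ℕ}
    (hd : ∀ a b : ℕ, @dist ℕ m.toPseudoMetricSpace.toDist a b = (d a b : ℝ))
    (hx : FracN J F k x y) : @lpVal ℕ m J.toFinset F.toFinset k ≤ fcost d J F x := by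
  have hx1 : ∀ i ∈ F, ∀ j ∈ J, x i j ≤ 1 := by
    intro i hi j hj
    rw [← hx.assign j hj]
    exact Finset.single_le_sum (f := fun i => x i j)
      (fun i hi => hx.nonneg i (List.mem_toFinset.1 hi) j hj) (List.mem_toFinset.2 hi)
  have hfr : @IsFrac ℕ J.toFinset F.toFinset (k : ℝ) x (fun i => min (y i) 1) := by
    refine ⟨?_, ?_, ?_, ?_, ?_, ?_⟩
    · intro i hi j hj
      exact hx.nonneg i (List.mem_toFinset.1 hi) j (List.mem_toFinset.1 hj)
    · intro i hi j hj
      rw [List.mem_toFinset] at hi hj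
      exact le_min (hx.le i hi j hj) (hx1 i hi j hj)
    · intro i hi
      exact le_min (hx.y_nonneg hset.neJ (List.mem_toFinset.1 hi)) zero_le_one
    · intro i hi
      exact min_le_right _ _
    · intro j hj
      exact hx.assign j (List.mem_toFinset.1 hj)
    · refine le_trans (Finset.sum_le_sum fun i _ => min_le_left _ _) hx.budget
  refine (@lpVal_le ℕ m J.toFinset F.toFinset k x _ hfr).trans (le_of_eq ?_)
  unfold fracCost fcost
  refine Finset.sum_congr rfl fun j _ => Finset.sum_congr rfl fun i _ => ?_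
  rw [hd]

end Vale.Agent.P334.Alg.One.H220
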