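import Vale.Agent.P334.H220.Det

set_option linter.all false

/-!
The deterministic algorithm: definition, guarantee, and the machine.
-/

namespace Vale.Agent.P334.Alg.One.H220

open Vale.Agent.Lib.PolyTime

/-- precision -/
def dNu (E n f : ℕ) : ℕ := E * n * (f + 1)

/-- truncation -/
def dCap (E n f : ℕ) : ℕ := 8 * (dNu E n f + 1) * n

/-- Data of the deterministic algorithm. -/
structure DData where
  pseudo : (ℕ → ℕ → ℕ) → ℕ → List ℕ → List ℕ → ℕ → List ℕ
  K3 : ℕ
  E : ℕ
  Us : ℕ → ℕ → ℕ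

namespace DData

variable (P : DData)

/-- Candidates for the scale `R`. -/
def candR (D : ℕ → ℕ → ℕ) (N : ℕ) (J F : List ℕ) (k R : ℕ) : List (List ℕ) :=
  [fallback D J F R,
    P.pseudo (scal D N R (P.Us J.length F.length) (dCap P.E J.length F.length)
      (dNu P.E J.length F.length))
      (P.Us J.length F.length * dCap P.E J.length F.length) J F k]

/-- All candidates. -/
def cand (D : ℕ → ℕ → ℕ) (N : ℕ) (J F : List ℕ) (k : ℕ) : List (List ℕ) :=
  fallback D J F 0 :: J.flatMap (fun j => F.flatMap (fun i => P.candR D N J F k (D j i)))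

/-- The deterministic algorithm on integral instances. -/
def det (D : ℕ → ℕ → ℕ) (l N : ℕ) (J F : List ℕ) (k : ℕ) : List ℕ :=
  bestOf D l J F (k + P.K3 * Nat.size J.length) (P.cand D N J F k)

/-- The deterministic algorithm. -/
def algD (I : Final.Inst) : List ℕ :=
  P.det (Dint I.M) (lint I.M) I.M.length I.J I.F (min I.k I.F.length)

end DData

variable {P : DData} {D : ℕ → ℕ → ℕ} {l N : ℕ} {J F : List ℕ} {k : ℕ}

theorem det_le {S : List ℕ} (hS : S ∈ P.cand D N J F k)
    (hf : Feas F (k + P.K3 * Nat.size J.length) S) :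
    cst D l J (P.det D l N J F k) ≤ cst D l J S := bestOf_le hS hf

theorem mem_cand {S : List ℕ} {j i : ℕ} (hj : j ∈ J) (hi : i ∈ F)
    (hS : S ∈ P.candR D N J F k (D j i)) : S ∈ P.cand D N J F k := by
  unfold DData.cand
  exact List.mem_cons_of_mem _ (List.mem_flatMap.2 ⟨j, hj, List.mem_flatMap.2 ⟨i, hi, hS⟩⟩)

/-- The guarantee on integral instances. -/
theorem det_spec {c3 : ℝ} (hE : 1 ≤ P.E) (h3 : PseudoSpec c3 P.K3 P.Us P.pseudo)
    (hLP : LPSpec c3 P.K3 P.Us P.pseudo) (hD : MetOn D l N) (hJ : J.Nodup)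
    (hJN : ∀ j ∈ J, j < N) (hF : F.Nodup) (hFN : ∀ i ∈ F, i < N) (hk : 1 ≤ k)
    (hkF : k ≤ F.length) :
    Feas F (k + P.K3 * Nat.size J.length) (P.det D l N J F k) ∧
    ∀ x y, FracN J F k x y →
      (cst D l J (P.det D l N J F k) : ℝ) ≤ c3 * (1 + 1 / P.E) * fcost D J F x := by
  have hF0 : F ≠ [] := by
    rintro rfl
    simp at hkF
    omega
  refine ⟨bestOf_feas hF0 (by omega) _, ?_⟩
  intro x y hx
  have hc1 : 1 ≤ c3 := h3.one_le
  have hc2 : c3 < 2 := h3.lt_two
  have hE0 : (0 : ℝ) < P.E := by exact_mod_cast hE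
  have hinv : 0 ≤ 1 / (P.E : ℝ) := by positivity
  have hfac : 1 ≤ c3 * (1 + 1 / (P.E : ℝ)) := by nlinarith
  have hL0 := fcost_nonneg (D := D) hx
  by_cases hJ0 : J = []
  · subst hJ0
    simp [cst, fcost]
  set n := J.length with hn
  set f := F.length with hf
  have hn0 : 0 < n := List.length_pos_iff.2 hJ0
  have hf0 : 0 < f := List.length_pos_iff.2 hF0
  have hmono : ∀ {S}, Feas F k S → Feas F (k + P.K3 * Nat.size J.length) S := fun h =>
    h.mono (Nat.le_add_right _ _)
  obtain ⟨R, hR, hR2⟩ := exists_scale hD hJN hFN hx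
  obtain ⟨h4, h5⟩ := fallback_frac hD hJ0 hJN hFN hx hR
  rcases hR2 with h0 | ⟨hRL, j0, hj0, i0, hi0, hRji⟩
  · -- scale zero
    subst h0
    have h6 : cst D l J (P.det D l N J F k) ≤ 0 :=
      (det_le (l := l) List.mem_cons_self (hmono h4)).trans (h5.trans (by simp))
    have h7 : cst D l J (P.det D l N J F k) = 0 := Nat.le_zero.1 h6
    rw [h7]
    have : 0 ≤ c3 * (1 + 1 / (P.E : ℝ)) * fcost D J F x :=
      mul_nonneg (by linarith) hL0
    simpa using this
  have hcand : ∀ S, S ∈ P.candR D N J F k R → Feas F (k + P.K3 * Nat.size J.length) S →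
      cst D l J (P.det D l N J F k) ≤ cst D l J S := by
    intro S hS hf
    refine det_le (mem_cand hj0 hi0 ?_) hf
    rwa [hRji]
  rcases Nat.eq_zero_or_pos R with h0 | hRpos
  · have h6 : cst D l J (P.det D l N J F k) ≤ 0 :=
      (hcand _ List.mem_cons_self (hmono h4)).trans (h5.trans (by simp [h0]))
    have h7 : cst D l J (P.det D l N J F k) = 0 := Nat.le_zero.1 h6
    rw [h7]
    have : 0 ≤ c3 * (1 + 1 / (P.E : ℝ)) * fcost D J F x :=
      mul_nonneg (by linarith) hL0
    simpa using this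
  have hRR : (0 : ℝ) < R := by exact_mod_cast hRpos
  by_cases hbig : 3 * (n : ℝ) * R ≤ fcost D J F x
  · -- the fallback is good
    have h6 : cst D l J (P.det D l N J F k) ≤ 3 * R * n :=
      (hcand _ List.mem_cons_self (hmono h4)).trans h5
    have h7 : (cst D l J (P.det D l N J F k) : ℝ) ≤ 3 * n * R := by
      have : (cst D l J (P.det D l N J F k) : ℝ) ≤ 3 * R * n := by exact_mod_cast h6
      linarith
    nlinarith
  push Not at hbig
  -- the scaled metric
  set nu := dNu P.E n f with hnu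
  set cap := dCap P.E n f with hcap
  set U := P.Us n f with hU
  have hUpos : 0 < U := h3.us_pos n f
  have hnu0 : 0 < nu := by
    rw [hnu, dNu]; positivity
  have hcap0 : 0 < cap := by
    rw [hcap, dCap]; positivity
  set d := scal D N R U cap nu with hd
  set L := U * cap with hL
  have hset : Setting d L J F :=
    { met := scal_met hD hRpos hUpos hcap0 hnu0
      le := fun a b => scal_le _ _ _ _ _ _ _ _
      nodupJ := hJ
      nodupF := hF
      neJ := hJ0
      neF := hF0 }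
  have hdvd : ∀ a b, P.Us J.length F.length ∣ d a b := fun a b => dvd_scal _ _ _ _ _ _ _ _
  set S := P.pseudo d L J F k with hS
  obtain ⟨k1, k2, -⟩ := h3.spec d L J F k hset hk hkF hdvd
  have k3 := hLP d L J F k hset hk hkF hdvd x y hx
  have hSF : ∀ i ∈ S, i < N := fun i hi => hFN i (k1.2.1 i hi)
  have hsc := fcost_scal (D := D) (U := U) (cap := cap) (nu := nu) hJN hFN hJ hRpos hx
  have hnR : (0 : ℝ) < n := by exact_mod_cast hn0
  have hUR : (0 : ℝ) < U := by exact_mod_cast hUpos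
  have hnuR : (0 : ℝ) < nu := by exact_mod_cast hnu0
  -- cost in the scaled metric
  have hA : (R : ℝ) * cst d L J S ≤ c3 * (U * (nu * fcost D J F x + n * R)) := by
    calc (R : ℝ) * cst d L J S ≤ R * (c3 * fcost d J F x) :=
          mul_le_mul_of_nonneg_left k3 hRR.le
      _ = c3 * (R * fcost d J F x) := by ring
      _ ≤ _ := mul_le_mul_of_nonneg_left hsc (by linarith)
  have hsmall : cst d L J S < U * cap := by
    have h1 : (R : ℝ) * cst d L J S < R * (U * cap) := by
      refine lt_of_le_of_lt hA ?_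
      have e1 : nu * fcost D J F x + n * R ≤ (nu * (3 * n) + n) * R := by nlinarith
      have e2 : (0 : ℝ) < (nu * (3 * n) + n) * R := by positivity
      have e3 : (2 : ℝ) * (nu * (3 * n) + n) ≤ cap := by
        have : (cap : ℝ) = 8 * (nu + 1) * n := by
          rw [hcap, dCap, ← hnu]; push_cast; ring
        rw [this]
        nlinarith
      calc c3 * (U * (nu * fcost D J F x + n * R))
          ≤ c3 * (U * ((nu * (3 * n) + n) * R)) := by
            refine mul_le_mul_of_nonneg_left (mul_le_mul_of_nonneg_left e1 hUR.le) (by linarith)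
        _ < 2 * (U * ((nu * (3 * n) + n) * R)) := by
            refine mul_lt_mul_of_pos_right hc2 (by positivity)
        _ = R * (U * (2 * (nu * (3 * n) + n))) := by ring
        _ ≤ R * (U * cap) := by
            refine mul_le_mul_of_nonneg_left (mul_le_mul_of_nonneg_left e3 hUR.le) hRR.le
    have h2 : (cst d L J S : ℝ) < U * cap := lt_of_mul_lt_mul_left h1 hRR.le
    exact_mod_cast h2
  have hlow := scal_lower (l := l) hD hRpos hUpos hJN hSF k1.1 hsmall
  have hlow' : (U : ℝ) * (nu * cst D l J S) ≤ R * cst d L J S := by exact_mod_cast hlow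
  have hB : (nu : ℝ) * cst D l J S ≤ c3 * (nu * fcost D J F x + n * R) := by
    have : (U : ℝ) * (nu * cst D l J S) ≤ U * (c3 * (nu * fcost D J F x + n * R)) := by
      refine (hlow'.trans hA).trans (le_of_eq ?_); ring
    exact le_of_mul_le_mul_left this hUR
  -- the rounding error
  have hkf : (k : ℝ) + 1 ≤ f + 1 := by
    have : (k : ℝ) ≤ f := by exact_mod_cast hkF
    linarith
  have hRf : (R : ℝ) ≤ (f + 1) * fcost D J F x :=
    hRL.trans (mul_le_mul_of_nonneg_right hkf hL0)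
  have hnueq : (nu : ℝ) = P.E * n * (f + 1) := by
    rw [hnu, dNu]; push_cast; ring
  have herr : (n : ℝ) * R ≤ nu * (1 / P.E) * fcost D J F x := by
    have e1 : (nu : ℝ) * (1 / P.E) = n * (f + 1) := by
      rw [hnueq]; field_simp
    rw [e1, mul_assoc]
    exact mul_le_mul_of_nonneg_left hRf hnR.le
  have hC : (nu : ℝ) * cst D l J S ≤ nu * (c3 * (1 + 1 / P.E) * fcost D J F x) := by
    refine hB.trans ?_
    calc c3 * (nu * fcost D J F x + n * R)
        ≤ c3 * (nu * fcost D J F x + nu * (1 / P.E) * fcost D J F x) :=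
          mul_le_mul_of_nonneg_left (by linarith) (by linarith)
      _ = _ := by ring
  have hfin : (cst D l J S : ℝ) ≤ c3 * (1 + 1 / P.E) * fcost D J F x :=
    le_of_mul_le_mul_left hC hnuR
  have h8 : cst D l J (P.det D l N J F k) ≤ cst D l J S :=
    hcand S (List.mem_cons_of_mem _ List.mem_cons_self) k1
  exact le_trans (by exact_mod_cast h8) hfin

/-! ### Polynomial time -/

section

variable {α : Type} [Enc α]

theorem pt_dNu {E : ℕ} {n f : α → ℕ} (hn : PT ∅ n) (hf : PT ∅ f) :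
    PT ∅ (fun a => dNu E (n a) (f a)) :=
  PT.mul (PT.mul (PT.const _) hn) (PT.add hf (PT.const 1))

theorem pbd_dNu {E : ℕ} {n f : α → ℕ} (hn : PBd n) (hf : PBd f) :
    PBd (fun a => dNu E (n a) (f a)) :=
  ((PBd.const _).mul hn).mul (hf.add (PBd.const 1))

theorem pt_dCap {E : ℕ} {n f : α → ℕ} (hn : PT ∅ n) (hf : PT ∅ f) :
    PT ∅ (fun a => dCap E (n a) (f a)) :=
  PT.mul (PT.mul (PT.const 8) (PT.add (pt_dNu hn hf) (PT.const 1))) hn

theorem pbd_dCap {E : ℕ} {n f : α → ℕ} (hn : PBd n) (hf : PBd f) :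
    PBd (fun a => dCap E (n a) (f a)) :=
  ((PBd.const 8).mul ((pbd_dNu hn hf).add (PBd.const 1))).mul hn

theorem pt_candR (h1 : PTPseudo P.pseudo) (h3 : PTU P.Us)
    {D : α → ℕ → ℕ → ℕ} {N k R : α → ℕ} {J F : α → List ℕ}
    (hD : PT ∅ (fun p : α × ℕ × ℕ => D p.1 p.2.1 p.2.2)) (hN : PT ∅ N)
    (hJ : PT ∅ J) (hF : PT ∅ F) (hk : PT ∅ k) (hkb : PBd k) (hR : PT ∅ R) :
    PT ∅ (fun a => P.candR (D a) (N a) (J a) (F a) (k a) (R a)) := by
  have hJl : PT ∅ (fun a => (J a).length) := hJ.length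
  have hJb : PBd (fun a => (J a).length) := PBd.length hJ
  have hFl : PT ∅ (fun a => (F a).length) := hF.length
  have hFb : PBd (fun a => (F a).length) := PBd.length hF
  obtain ⟨hU, hUb⟩ := h3 α _ _ hJl hJb hFl hFb
  have hcap : PT ∅ (fun a => dCap P.E (J a).length (F a).length) := pt_dCap hJl hFl
  have hcapb : PBd (fun a => dCap P.E (J a).length (F a).length) := pbd_dCap hJb hFb
  refine PT.cons (pt_fallback hD hJ hF hR) (PT.cons ?_ PT.nil)
  refine h1 α (fun a => scal (D a) (N a) (R a) (P.Us (J a).length (F a).length)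
      (dCap P.E (J a).length (F a).length) (dNu P.E (J a).length (F a).length))
    (fun a => P.Us (J a).length (F a).length * dCap P.E (J a).length (F a).length) k J F
    ?_ ?_ (PT.mul hU hcap) (hUb.mul hcapb) hJ hF hk hkb
  · exact pt_scal (U := fun a => P.Us (J a).length (F a).length)
      (cap := fun a => dCap P.E (J a).length (F a).length)
      (nu := fun a => dNu P.E (J a).length (F a).length) hD hN hR hU hcap (pt_dNu hJl hFl)
  · intro a x y
    exact scal_le _ _ _ _ _ _ _ _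

theorem pt_cand (h1 : PTPseudo P.pseudo) (h3 : PTU P.Us)
    {D : α → ℕ → ℕ → ℕ} {N k : α → ℕ} {J F : α → List ℕ}
    (hD : PT ∅ (fun p : α × ℕ × ℕ => D p.1 p.2.1 p.2.2)) (hN : PT ∅ N)
    (hJ : PT ∅ J) (hF : PT ∅ F) (hk : PT ∅ k) (hkb : PBd k) :
    PT ∅ (fun a => P.cand (D a) (N a) (J a) (F a) (k a)) := by
  have hR : PT ∅ (fun q : (α × ℕ) × ℕ => D q.1.1 q.1.2 q.2) :=
    hD.comp (PT.fst'.fst.pair (PT.fst'.snd.pair PT.snd'))
  have hc : PT ∅ (fun q : (α × ℕ) × ℕ =>
      P.candR (D q.1.1) (N q.1.1) (J q.1.1) (F q.1.1) (k q.1.1) (D q.1.1 q.1.2 q.2)) :=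
    pt_candR h1 h3 (D := fun q : (α × ℕ) × ℕ => D q.1.1)
      (N := fun q => N q.1.1) (k := fun q => k q.1.1) (R := fun q => D q.1.1 q.1.2 q.2)
      (J := fun q => J q.1.1) (F := fun q => F q.1.1)
      (hD.comp (PT.fst'.fst.fst.pair PT.snd')) (hN.comp PT.fst'.fst) (hJ.comp PT.fst'.fst)
      (hF.comp PT.fst'.fst) (hk.comp PT.fst'.fst) (hkb.comp (PT.fst' (A := ∅)).fst) hR
  have hc2 : PT ∅ (fun p : α × ℕ => (F p.1).flatMap (fun i =>
      P.candR (D p.1) (N p.1) (J p.1) (F p.1) (k p.1) (D p.1 p.2 i))) :=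
    PT.flatMap (l := fun p : α × ℕ => F p.1) (f := fun p i =>
      P.candR (D p.1) (N p.1) (J p.1) (F p.1) (k p.1) (D p.1 p.2 i)) (hF.comp PT.fst') hc
  have hc3 : PT ∅ (fun a => (J a).flatMap (fun j => (F a).flatMap (fun i =>
      P.candR (D a) (N a) (J a) (F a) (k a) (D a j i)))) :=
    PT.flatMap (f := fun a j => (F a).flatMap (fun i =>
      P.candR (D a) (N a) (J a) (F a) (k a) (D a j i))) hJ hc2
  exact PT.cons (pt_fallback (R := fun _ => 0) hD hJ hF (PT.const 0)) hc3

theorem pt_det (h1 : PTPseudo P.pseudo) (h3 : PTU P.Us)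
    {D : α → ℕ → ℕ → ℕ} {l N k : α → ℕ} {J F : α → List ℕ}
    (hD : PT ∅ (fun p : α × ℕ × ℕ => D p.1 p.2.1 p.2.2)) (hl : PT ∅ l) (hN : PT ∅ N)
    (hJ : PT ∅ J) (hF : PT ∅ F) (hk : PT ∅ k) (hkb : PBd k) :
    PT ∅ (fun a => P.det (D a) (l a) (N a) (J a) (F a) (k a)) :=
  pt_bestOf hD hl hJ hF (PT.add hk (PT.mul (PT.const _) (PT.natSize hJ.length)))
    (pt_cand h1 h3 hD hN hJ hF hk hkb)

end

theorem pt_algD (h1 : PTPseudo P.pseudo) (h3 : PTU P.Us) :
    PT ∅ (fun I : Final.Inst => P.algD I) := by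
  have hi := PT.inst
  have hM : PT ∅ (fun x : Final.Inst => x.M) := hi.snd.snd.snd
  have hJ : PT ∅ (fun x : Final.Inst => x.J) := hi.fst
  have hF : PT ∅ (fun x : Final.Inst => x.F) := hi.snd.fst
  have hk : PT ∅ (fun x : Final.Inst => x.k) := hi.snd.snd.fst
  have hD : PT ∅ (fun p : Final.Inst × ℕ × ℕ => One.Dint p.1.M p.2.1 p.2.2) :=
    PT.Dint (hM.comp PT.fst') PT.snd'.fst PT.snd'.snd
  have hl : PT ∅ (fun x : Final.Inst => One.lint x.M) := PT.lint hM
  have hN : PT ∅ (fun x : Final.Inst => x.M.length) := hM.length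
  have hk' : PT ∅ (fun x : Final.Inst => min x.k x.F.length) := PT.min hk hF.length
  exact pt_det (P := P) h1 h3 (D := fun x : Final.Inst => One.Dint x.M)
    (l := fun x => One.lint x.M) (N := fun x => x.M.length) (J := fun x => x.J)
    (F := fun x => x.F) (k := fun x => min x.k x.F.length) hD hl hN hJ hF hk'
    ((PBd.length hF).mono fun x => min_le_right _ _)

theorem exists_machineD (h1 : PTPseudo P.pseudo) (h3 : PTU P.Us) :
    ∃ M : Turing.TM2ComputableInPolyTime Final.Inst.code (Final.codeList Nat.bits) P.algD,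
      ∀ k, Finite (M.tm.Γ k) := by
  have e : (Final.codeList Nat.bits) = (enc : List ℕ → List Bool) :=
    funext fun l => codeList_eq (fun a => rfl) l
  rw [e]
  exact PT.exists_tm2 (pt_algD h1 h3)

end Vale.Agent.P334.Alg.One.H220
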