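import Vale.Agent.P334.H220.Prob

set_option linter.all false

/-!
Assembly.
-/

namespace Vale.Agent.P334.Alg.One.H220

open Vale.Agent.Lib.PolyTime

/-- Part 3. -/
theorem pseudo_lp (hS : LmSingleSpec) (hR : LmRadSpec) (h1 : Cand1Spec) (h2 : Cands2Spec) :
    ∃ (c3 : ℝ) (K3 : ℕ) (Us3 : ℕ → ℕ → ℕ)
      (pseudo : (ℕ → ℕ → ℕ) → ℕ → List ℕ → List ℕ → ℕ → List ℕ),
      PseudoSpec c3 K3 Us3 pseudo ∧ LPSpec c3 K3 Us3 pseudo ∧ PTPseudo pseudo ∧ PTU Us3 ∧ c3 < 2 - 1 / 10 ^ 28 := by
  obtain ⟨e, M, C, κ0, κ, ε, T1, T2, g1, g2, g3, g4, g5, g6, g7, g8, g9, g10, g11⟩ := consts_exist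
  have hc : Consts e M C κ0 κ ε T1 T2 := ⟨g1, g2, g3, g4, g5, g6, g7, g8, g9, g10, g11⟩
  have hκpos : 0 < κ := by
    rw [g3, g2, g1]; positivity
  have hκ1 : κ ≤ 1 / 100 := by
    rw [g3, g2, g1]; norm_num
  refine ⟨2 - κ / 16, 3 * ((M + 3) * C), usP e M C, pseudoP e M C, ⟨by (clear * - hκpos hκ1; linarith), by linarith only [hκpos],
    ?_, ?_, ?_⟩, ?_, PTPseudo_pseudoP e M C, PTU_usP e M C, ?_⟩
  · have : 1 ≤ (M + 3) * C := Nat.mul_pos (by omega) g10
    (clear * - this; omega)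
  · intro n f
    unfold usP
    (clear * - g7 g8; positivity)
  · intro d l J F k hset hk hkF hdvd
    obtain ⟨m, hm⟩ : ∃ m : MetricSpace ℕ, m = hset.met.space := ⟨_, rfl⟩
    have hd : ∀ a b : ℕ, @dist ℕ m.toPseudoMetricSpace.toDist a b = (d a b : ℝ) := by
      intro a b
      subst hm
      rfl
    have ho := opt_eq hd hset.le hset.nodupJ hset.neF hk
    have key := @pseudoP_spec hS hR h1 h2 e M C κ0 κ ε T1 T2 hc ℕ m _ d hd l hset.le J F
      hset.nodupJ hset.nodupF hset.neJ hset.neF k hk hdvd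
    obtain ⟨k1, k2, k3, k4, k5⟩ := key
    refine ⟨⟨k1, k3, ?_⟩, k2, ?_⟩
    · refine k4.trans (le_of_eq ?_)
      unfold mS
      ring
    · rw [cst_real hd hset.nodupJ k1 (fun j _ s _ => hset.le j s), ← ho]
      refine k5.trans (mul_le_mul_of_nonneg_left ?_ (by linarith only [hκ1]))
      refine lpVal_le_opt ?_ hk
      rw [List.toFinset_nonempty_iff]
      exact hset.neF
  · intro d l J F k hset hk hkF hdvd x y hx
    obtain ⟨m, hm⟩ : ∃ m : MetricSpace ℕ, m = hset.met.space := ⟨_, rfl⟩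
    have hd : ∀ a b : ℕ, @dist ℕ m.toPseudoMetricSpace.toDist a b = (d a b : ℝ) := by
      intro a b
      subst hm
      rfl
    have key := @pseudoP_spec hS hR h1 h2 e M C κ0 κ ε T1 T2 hc ℕ m _ d hd l hset.le J F
      hset.nodupJ hset.nodupF hset.neJ hset.neF k hk hdvd
    obtain ⟨k1, k2, k3, k4, k5⟩ := key
    rw [cst_real hd hset.nodupJ k1 (fun j _ s _ => hset.le j s)]
    exact k5.trans (mul_le_mul_of_nonneg_left (lp_of_frac hset hd hx) (by linarith only [hκ1]))
  · rw [g3, g2, g1]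
    norm_num

/-- The final theorem from the two parts. -/
theorem main_lp {c3 : ℝ} {K3 : ℕ} {Us3 : ℕ → ℕ → ℕ}
    {pseudo : (ℕ → ℕ → ℕ) → ℕ → List ℕ → List ℕ → ℕ → List ℕ} (h3 : PseudoSpec c3 K3 Us3 pseudo)
    (hLP : LPSpec c3 K3 Us3 pseudo)
    (hp3 : PTPseudo pseudo) (hu3 : PTU Us3) {c2 : ℝ} (hc2 : c2 < 2)
    (h2 : ∀ Kb : ℕ, 1 ≤ Kb → ∃ (K2 : ℕ) (Us2 : ℕ → ℕ → ℕ) (Lr : ℕ → ℕ → ℕ → ℕ)
      (trial : (ℕ → ℕ → ℕ) → ℕ → List ℕ → List ℕ → ℕ → List ℕ → List Bool → List ℕ),
      TrialSpec c2 K3 Kb K2 Us2 Lr trial ∧ PTTrial trial ∧ PTU Us2 ∧ PTL Lr)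
    {q : ℚ} (hq2 : c2 < q) (hq3 : c3 < q) :
    ∃ (A : Final.Input → List ℕ) (T : Polynomial ℕ) (B : Final.Inst → List ℕ),
      (∃ M : Turing.TM2ComputableInPolyTime Final.Input.code (Final.codeList Nat.bits) A,
        ∀ k, Finite (M.tm.Γ k)) ∧
      (∃ M : Turing.TM2ComputableInPolyTime Final.Inst.code (Final.codeList Nat.bits) B,
        ∀ k, Finite (M.tm.Γ k)) ∧
      ∀ I : Final.Inst, I.Valid →
        (∀ r : Fin (T.eval I.code.length) → Bool, I.Feasible (A ⟨I, List.ofFn r⟩).toFinset) ∧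
        (∀ S, I.Feasible S →
          (∑ r : Fin (T.eval I.code.length) → Bool, I.cost (A ⟨I, List.ofFn r⟩).toFinset) /
            2 ^ (T.eval I.code.length) ≤ q * I.cost S) ∧
        (∀ S, I.Feasible S →
          Nat.card {r : Fin (T.eval I.code.length) → Bool //
            q * I.cost S < I.cost (A ⟨I, List.ofFn r⟩).toFinset} * 2 ^ I.J.length ≤
              2 ^ (T.eval I.code.length)) ∧
        (B I).toFinset.Nonempty ∧ (B I).toFinset ⊆ I.F.toFinset ∧
        (B I).toFinset.card ≤ I.k + K3 * Nat.size I.J.length ∧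
        ∀ x y, FracN I.J I.F I.k x y →
          (I.cost (B I).toFinset : ℝ) ≤
            q * ∑ j ∈ I.J.toFinset, ∑ i ∈ I.F.toFinset, x i j * (I.dist i j : ℝ) := by
  have hcc : max c2 c3 < 2 := max_lt hc2 h3.lt_two
  obtain ⟨E, hE, hq⟩ := exists_E (le_trans zero_le_one (le_max_of_le_right h3.one_le)) hcc
    (max_lt hq2 hq3)
  obtain ⟨K2, Us2, Lr, trial, hT, hpt, hpu, hpl⟩ := h2 (2 * E * K3)
    (Nat.mul_pos (by (clear * - hE; omega)) h3.pos)
  let P : Data := ⟨pseudo, trial, K3, K2, E, fun n f => Us3 n f * Us2 n f, Lr⟩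
  have hPU : PTU P.Us := by
    intro α _ n f h4 h5 h6 h7
    obtain ⟨h8, h9⟩ := hu3 α n f h4 h5 h6 h7
    obtain ⟨h10, h11⟩ := hpu α n f h4 h5 h6 h7
    exact ⟨h8.mul h10, h9.mul h11⟩
  obtain ⟨T, hTp⟩ := exists_poly (P := P) hPU hpl
  let PD : DData := ⟨pseudo, K3, E, Us3⟩
  refine ⟨alg P, T, PD.algD, exists_machine hp3 hpt hPU hpl,
    exists_machineD (P := PD) hp3 hu3, ?_⟩
  intro I hI
  obtain ⟨h4, h5⟩ := kmed_spec (P := P) (t := T.eval I.code.length) hE h3 hT
    (fun n f => Nat.dvd_mul_right _ _) (fun n f => Nat.dvd_mul_left _ _)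
    (fun n f => Nat.mul_pos (h3.us_pos n f) (hT.us_pos n f)) (metOn_of_valid hI) hI.nodup_J hI.lt_J
    hI.nodup_F hI.lt_F hI.one_le hI.k_le (hTp I)
  have hmin : min I.k I.F.length = I.k := min_eq_left hI.k_le
  have halg : ∀ r, alg P ⟨I, r⟩ =
      P.kmed (Dint I.M) (lint I.M) I.M.length I.J I.F I.k r := by
    intro r
    simp only [alg, hmin]
  have hfS : ∀ S, I.Feasible S → Feas I.F I.k S.toList := by
    intro S hS
    obtain ⟨h6, h7, h8⟩ := hS
    refine ⟨?_, ?_, ?_⟩
    · rw [Ne, Finset.toList_eq_nil]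
      exact h6.ne_empty
    · intro x hx
      rw [Finset.mem_toList] at hx
      exact List.mem_toFinset.1 (h7 hx)
    · rw [Finset.length_toList]
      exact h8
  have hopt9 : ∀ S, I.Feasible S →
      (optN (Dint I.M) (lint I.M) I.J I.F I.k : ℝ) ≤ den I.M * (I.cost S : ℝ) := by
    intro S hS
    have h10 := cost_eq hI.nodup_J (hfS S hS).1
    rw [Finset.toList_toFinset] at h10
    have h11 : (cst (Dint I.M) (lint I.M) I.J S.toList : ℝ) = den I.M * (I.cost S : ℝ) := by
      exact_mod_cast h10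
    rw [← h11]
    exact_mod_cast optN_le (hfS S hS)
  have h10 : ∀ r : Fin (T.eval I.code.length) → Bool,
      (cst (Dint I.M) (lint I.M) I.J
        (P.kmed (Dint I.M) (lint I.M) I.M.length I.J I.F I.k (List.ofFn r)) : ℝ) =
      den I.M * (I.cost (alg P ⟨I, List.ofFn r⟩).toFinset : ℝ) := by
    intro r
    rw [halg]
    have := cost_eq hI.nodup_J (h4 (List.ofFn r)).1
    exact_mod_cast this
  have hden : (0 : ℝ) < den I.M := by exact_mod_cast den_pos I.M
  refine ⟨?_, ?_, ?_, ?_⟩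
  · intro r
    rw [halg]
    obtain ⟨h6, h7, h8⟩ := h4 (List.ofFn r)
    refine ⟨?_, ?_, ?_⟩
    · rw [List.toFinset_nonempty_iff]
      exact h6
    · intro x hx
      rw [List.mem_toFinset] at hx ⊢
      exact h7 x hx
    · exact (List.toFinset_card_le _).trans h8
  · intro S hS
    obtain ⟨h6, h7, h8⟩ := hS
    have hden : (0 : ℝ) < den I.M := by exact_mod_cast den_pos I.M
    have hfS : Feas I.F I.k S.toList := by
      refine ⟨?_, ?_, ?_⟩
      · rw [Ne, Finset.toList_eq_nil]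
        exact h6.ne_empty
      · intro x hx
        rw [Finset.mem_toList] at hx
        exact List.mem_toFinset.1 (h7 hx)
      · rw [Finset.length_toList]
        exact h8
    have h9 : (optN (Dint I.M) (lint I.M) I.J I.F I.k : ℝ) ≤ den I.M * (I.cost S : ℝ) := by
      have h10 := cost_eq hI.nodup_J hfS.1
      rw [Finset.toList_toFinset] at h10
      have h11 : (cst (Dint I.M) (lint I.M) I.J S.toList : ℝ) = den I.M * (I.cost S : ℝ) := by
        exact_mod_cast h10
      rw [← h11]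
      exact_mod_cast optN_le hfS
    simp only [h10] at h5
    rw [← Finset.mul_sum] at h5
    have h11 : (den I.M : ℝ) * ∑ r : Fin (T.eval I.code.length) → Bool,
        (I.cost (alg P ⟨I, List.ofFn r⟩).toFinset : ℝ) ≤
        den I.M * (q * I.cost S * 2 ^ (T.eval I.code.length)) := by
      refine h5.trans ?_
      have hpow : (0 : ℝ) ≤ 2 ^ (T.eval I.code.length) := by positivity
      calc (max c2 c3 * (1 + 1 / (E : ℝ)) * (1 + 1 / E) + 2 / E) *
            optN (Dint I.M) (lint I.M) I.J I.F I.k * 2 ^ (T.eval I.code.length)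
          ≤ q * (den I.M * (I.cost S : ℝ)) * 2 ^ (T.eval I.code.length) := by
            refine mul_le_mul_of_nonneg_right ?_ hpow
            refine mul_le_mul hq h9 (Nat.cast_nonneg _) ?_
            refine le_trans ?_ hq
            have : 0 ≤ max c2 c3 := le_trans zero_le_one (le_max_of_le_right h3.one_le)
            (clear * - this hE; positivity)
        _ = _ := by ring
    have h12 := le_of_mul_le_mul_left h11 hden
    rw [div_le_iff₀ (by positivity)]
    exact_mod_cast h12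
  · -- the probability
    intro S hS
    have hp := kmed_prob (P := P) (t := T.eval I.code.length) hE h3 hT
      (fun n f => Nat.dvd_mul_right _ _) (fun n f => Nat.dvd_mul_left _ _)
      (fun n f => Nat.mul_pos (h3.us_pos n f) (hT.us_pos n f)) (metOn_of_valid hI) hI.nodup_J
      hI.lt_J hI.nodup_F hI.lt_F hI.one_le hI.k_le (hTp I)
    have hq0 : max c2 c3 * (1 + 1 / (E : ℝ)) * (1 + 1 / E) ≤ q := by
      have : (0 : ℝ) ≤ 2 / (E : ℝ) := by positivity
      linarith
    have himp : ∀ r : Fin (T.eval I.code.length) → Bool,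
        q * I.cost S < I.cost (alg P ⟨I, List.ofFn r⟩).toFinset →
        max c2 c3 * (1 + 1 / (P.E : ℝ)) * (1 + 1 / P.E) *
          optN (Dint I.M) (lint I.M) I.J I.F I.k <
        (cst (Dint I.M) (lint I.M) I.J
          (P.kmed (Dint I.M) (lint I.M) I.M.length I.J I.F I.k (List.ofFn r)) : ℝ) := by
      intro r hr
      rw [h10 r]
      have hr' : (q : ℝ) * (I.cost S : ℝ) < (I.cost (alg P ⟨I, List.ofFn r⟩).toFinset : ℝ) := by
        exact_mod_cast hr
      have hqq : (0 : ℝ) ≤ q := by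
        refine le_trans ?_ hq0
        have : 0 ≤ max c2 c3 := le_trans zero_le_one (le_max_of_le_right h3.one_le)
        positivity
      calc max c2 c3 * (1 + 1 / (E : ℝ)) * (1 + 1 / E) * optN (Dint I.M) (lint I.M) I.J I.F I.k
          ≤ q * (den I.M * (I.cost S : ℝ)) :=
            mul_le_mul hq0 (hopt9 S hS) (Nat.cast_nonneg _) hqq
        _ = den I.M * (q * (I.cost S : ℝ)) := by ring
        _ < _ := mul_lt_mul_of_pos_left hr' hden
    have hcard := Nat.card_le_card_of_injective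
      (fun r : {r : Fin (T.eval I.code.length) → Bool //
        q * I.cost S < I.cost (alg P ⟨I, List.ofFn r⟩).toFinset} =>
        (⟨r.1, himp r.1 r.2⟩ : {r : Fin (T.eval I.code.length) → Bool //
          max c2 c3 * (1 + 1 / (P.E : ℝ)) * (1 + 1 / P.E) *
            optN (Dint I.M) (lint I.M) I.J I.F I.k <
          (cst (Dint I.M) (lint I.M) I.J
            (P.kmed (Dint I.M) (lint I.M) I.M.length I.J I.F I.k (List.ofFn r)) : ℝ)}))
      (fun a b h => Subtype.ext (congrArg (fun z => z.1) h))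
    have hexp : Real.exp (-((P.E : ℝ) * I.J.length)) * 2 ^ I.J.length ≤ 1 := by
      have e1 : (2 : ℝ) ^ I.J.length ≤ Real.exp ((P.E : ℝ) * I.J.length) := by
        have e2 : (2 : ℝ) ≤ Real.exp 1 := by
          have := Real.add_one_le_exp (1 : ℝ)
          linarith
        calc (2 : ℝ) ^ I.J.length ≤ Real.exp 1 ^ I.J.length :=
              pow_le_pow_left₀ (by norm_num) e2 _
          _ = Real.exp (I.J.length : ℝ) := by rw [← Real.exp_nat_mul, mul_one]
          _ ≤ _ := by
              refine Real.exp_le_exp.2 ?_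
              have e3 : (1 : ℝ) ≤ P.E := by exact_mod_cast hE
              nlinarith [(Nat.cast_nonneg I.J.length : (0 : ℝ) ≤ I.J.length)]
      rw [Real.exp_neg]
      rw [inv_mul_le_iff₀ (Real.exp_pos _), mul_one]
      exact e1
    have hfin : (Nat.card {r : Fin (T.eval I.code.length) → Bool //
        q * I.cost S < I.cost (alg P ⟨I, List.ofFn r⟩).toFinset} : ℝ) * 2 ^ I.J.length ≤
        2 ^ (T.eval I.code.length) := by
      have h12 : (Nat.card {r : Fin (T.eval I.code.length) → Bool //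
        q * I.cost S < I.cost (alg P ⟨I, List.ofFn r⟩).toFinset} : ℝ) ≤
        Real.exp (-((P.E : ℝ) * I.J.length)) * 2 ^ (T.eval I.code.length) := by
        refine le_trans ?_ hp
        exact_mod_cast hcard
      calc _ ≤ Real.exp (-((P.E : ℝ) * I.J.length)) * 2 ^ (T.eval I.code.length) *
            2 ^ I.J.length := mul_le_mul_of_nonneg_right h12 (by positivity)
        _ = Real.exp (-((P.E : ℝ) * I.J.length)) * 2 ^ I.J.length *
            2 ^ (T.eval I.code.length) := by ring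
        _ ≤ 1 * 2 ^ (T.eval I.code.length) := mul_le_mul_of_nonneg_right hexp (by positivity)
        _ = _ := one_mul _
    exact_mod_cast hfin
  · -- the deterministic algorithm
    have hBI : PD.algD I = PD.det (Dint I.M) (lint I.M) I.M.length I.J I.F I.k := by
      simp only [DData.algD, hmin]
    obtain ⟨k1, k2⟩ := det_spec (P := PD) hE h3 hLP (metOn_of_valid hI) hI.nodup_J hI.lt_J
      hI.nodup_F hI.lt_F hI.one_le hI.k_le
    rw [hBI]
    refine ⟨?_, ?_, ?_, ?_⟩
    · rw [List.toFinset_nonempty_iff]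
      exact k1.1
    · intro z hz
      rw [List.mem_toFinset] at hz ⊢
      exact k1.2.1 z hz
    · exact (List.toFinset_card_le _).trans k1.2.2
    · intro x y hxy
      have h12 := k2 x y hxy
      have h13 := cost_eq hI.nodup_J k1.1
      have h14 : (cst (Dint I.M) (lint I.M) I.J
          (PD.det (Dint I.M) (lint I.M) I.M.length I.J I.F I.k) : ℝ) = den I.M *
          (I.cost (PD.det (Dint I.M) (lint I.M) I.M.length I.J I.F I.k).toFinset : ℝ) := by
        exact_mod_cast h13
      have h15 : fcost (Dint I.M) I.J I.F x = den I.M *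
          ∑ j ∈ I.J.toFinset, ∑ i ∈ I.F.toFinset, x i j * (I.dist i j : ℝ) := by
        unfold fcost
        rw [Finset.mul_sum]
        refine Finset.sum_congr rfl fun j _ => ?_
        rw [Finset.mul_sum]
        refine Finset.sum_congr rfl fun i _ => ?_
        have h16 : ((Dint I.M i j : ℕ) : ℝ) = den I.M * (I.dist i j : ℝ) := by
          exact_mod_cast Dint_eq I i j
        rw [h16]
        ring
      have h17 := fcost_nonneg (D := Dint I.M) hxy
      have h18 : c3 * (1 + 1 / (E : ℝ)) ≤ q := by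
        have e1 : c3 ≤ max c2 c3 := le_max_right _ _
        have e2 : (0 : ℝ) ≤ 1 / (E : ℝ) := by positivity
        have e3 : (0 : ℝ) ≤ 2 / (E : ℝ) := by positivity
        have e4 : 1 ≤ max c2 c3 := le_max_of_le_right h3.one_le
        calc c3 * (1 + 1 / (E : ℝ)) ≤ max c2 c3 * (1 + 1 / (E : ℝ)) :=
              mul_le_mul_of_nonneg_right e1 (by linarith)
          _ ≤ max c2 c3 * (1 + 1 / (E : ℝ)) * (1 + 1 / E) :=
              le_mul_of_one_le_right (by positivity) (by linarith)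
          _ ≤ q := by linarith
      rw [h14] at h12
      have h19 : den I.M *
          (I.cost (PD.det (Dint I.M) (lint I.M) I.M.length I.J I.F I.k).toFinset : ℝ) ≤
          den I.M * (q * ∑ j ∈ I.J.toFinset, ∑ i ∈ I.F.toFinset, x i j * (I.dist i j : ℝ)) := by
        refine h12.trans ?_
        calc c3 * (1 + 1 / (E : ℝ)) * fcost (Dint I.M) I.J I.F x
            ≤ q * fcost (Dint I.M) I.J I.F x := mul_le_mul_of_nonneg_right h18 h17
          _ = _ := by rw [h15]; ring
      exact le_of_mul_le_mul_left h19 hden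

/-- The final theorem. -/
theorem closed_lp :
    ∃ (A : Final.Input → List ℕ) (T : Polynomial ℕ) (B : Final.Inst → List ℕ) (K : ℕ),
      (∃ M : Turing.TM2ComputableInPolyTime Final.Input.code (Final.codeList Nat.bits) A,
        ∀ k, Finite (M.tm.Γ k)) ∧
      (∃ M : Turing.TM2ComputableInPolyTime Final.Inst.code (Final.codeList Nat.bits) B,
        ∀ k, Finite (M.tm.Γ k)) ∧
      ∀ I : Final.Inst, I.Valid →
        (∀ r : Fin (T.eval I.code.length) → Bool, I.Feasible (A ⟨I, List.ofFn r⟩).toFinset) ∧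
        (∀ S, I.Feasible S →
          (∑ r : Fin (T.eval I.code.length) → Bool, I.cost (A ⟨I, List.ofFn r⟩).toFinset) /
            2 ^ (T.eval I.code.length) ≤ (2 - 1 / 10 ^ 28) * I.cost S) ∧
        (∀ S, I.Feasible S →
          Nat.card {r : Fin (T.eval I.code.length) → Bool //
            (2 - 1 / 10 ^ 28) * I.cost S < I.cost (A ⟨I, List.ofFn r⟩).toFinset} *
              2 ^ I.J.length ≤ 2 ^ (T.eval I.code.length)) ∧
        (B I).toFinset.Nonempty ∧ (B I).toFinset ⊆ I.F.toFinset ∧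
        (B I).toFinset.card ≤ I.k + K * Nat.size I.J.length ∧
        ∀ x y, FracN I.J I.F I.k x y →
          (I.cost (B I).toFinset : ℝ) ≤ (2 - 1 / 10 ^ 28) *
            ∑ j ∈ I.J.toFinset, ∑ i ∈ I.F.toFinset, x i j * (I.dist i j : ℝ) := by
  obtain ⟨c3, K3, Us3, pseudo, h3, hLP, h4, h5, h6⟩ :=
    pseudo_lp lmSingleSpec lmRadSpec cand1Spec cands2Spec
  obtain ⟨A, T, B, hA, hB, h⟩ := main_lp h3 hLP h4 h5 (c2 := 1995 / 1000) (by norm_num)
    (fun Kb hKb => stable_exists K3 Kb hKb) (q := 2 - 1 / 10 ^ 28) (by norm_num)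
    (by push_cast; exact h6)
  refine ⟨A, T, B, K3, hA, hB, fun I hI => ?_⟩
  obtain ⟨g1, g2, g3, g4, g5, g6, g7⟩ := h I hI
  refine ⟨g1, g2, g3, g4, g5, g6, fun x y hxy => ?_⟩
  have := g7 x y hxy
  push_cast at this
  exact this

end Vale.Agent.P334.Alg.One.H220
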