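import Vale.Agent.P334.H220.Det2

set_option linter.all false

/-!
The probability that the randomized algorithm fails.
-/

namespace Vale.Agent.P334.Alg.One.H220

open Vale.Agent.Lib.PolyTime

/-- The probability that the algorithm fails. -/
theorem kmed_prob {P : Data} {c2 c3 : ℝ} {Us3 Us2 : ℕ → ℕ → ℕ}
    (hE : 1 ≤ P.E) (h3 : PseudoSpec c3 P.K3 Us3 P.pseudo)
    (h2 : TrialSpec c2 P.K3 (2 * P.E * P.K3) P.K2 Us2 P.Lr P.trial)
    (hU3 : ∀ n f, Us3 n f ∣ P.Us n f) (hU2 : ∀ n f, Us2 n f ∣ P.Us n f)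
    (hU : ∀ n f, 0 < P.Us n f) {D : ℕ → ℕ → ℕ} {l N : ℕ} {J F : List ℕ} {k t : ℕ}
    (hD : MetOn D l N) (hJ : J.Nodup) (hJN : ∀ j ∈ J, j < N) (hF : F.Nodup)
    (hFN : ∀ i ∈ F, i < N) (hk : 1 ≤ k) (hkF : k ≤ F.length)
    (ht : P.reps J.length F.length * P.len J.length F.length ≤ t) :
    (Nat.card {r : Fin t → Bool // max c2 c3 * (1 + 1 / P.E) * (1 + 1 / P.E) * optN D l J F k <
      (cst D l J (P.kmed D l N J F k (List.ofFn r)) : ℝ)} : ℝ) ≤
      Real.exp (-((P.E : ℝ) * J.length)) * 2 ^ t := by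
  have hF0 : F ≠ [] := by
    rintro rfl
    simp only [List.length_nil, nonpos_iff_eq_zero] at hkF
    omega
  have hpow0 : (0 : ℝ) ≤ Real.exp (-((P.E : ℝ) * J.length)) * 2 ^ t := by positivity
  have hempty : (∀ r : Fin t → Bool, (cst D l J (P.kmed D l N J F k (List.ofFn r)) : ℝ) ≤
      max c2 c3 * (1 + 1 / P.E) * (1 + 1 / P.E) * optN D l J F k) →
      (Nat.card {r : Fin t → Bool // max c2 c3 * (1 + 1 / P.E) * (1 + 1 / P.E) *
        optN D l J F k < (cst D l J (P.kmed D l N J F k (List.ofFn r)) : ℝ)} : ℝ) ≤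
      Real.exp (-((P.E : ℝ) * J.length)) * 2 ^ t := by
    intro h
    haveI : IsEmpty {r : Fin t → Bool // max c2 c3 * (1 + 1 / P.E) * (1 + 1 / P.E) *
        optN D l J F k < (cst D l J (P.kmed D l N J F k (List.ofFn r)) : ℝ)} :=
      ⟨fun r => absurd (h r.1) (not_le.2 r.2)⟩
    rw [Nat.card_of_isEmpty]
    simpa using hpow0
  have hE0 : (0 : ℝ) < P.E := by exact_mod_cast hE
  have hE1 : (1 : ℝ) ≤ P.E := by exact_mod_cast hE
  have hc1 : 1 ≤ max c2 c3 := le_max_of_le_left h2.one_le
  have hc2' : max c2 c3 < 2 := max_lt h2.lt_two h3.lt_two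
  have hinv : 0 < 1 / (P.E : ℝ) := by positivity
  have hinv1 : 1 / (P.E : ℝ) ≤ 1 := by
    rw [div_le_one hE0]; exact hE1
  have hfac : 0 ≤ max c2 c3 * (1 + 1 / P.E) * (1 + 1 / P.E) + 2 / P.E := by positivity
  by_cases hJ0 : J = []
  · subst hJ0
    refine hempty fun r => ?_
    simp only [cst, List.map_nil, List.sum_nil, Nat.cast_zero]
    have : 0 ≤ max c2 c3 := by linarith
    positivity
  obtain ⟨T, hT, -, hTc⟩ := exists_optN D l J hF0 hk
  have hDT : ∀ j ∈ J, ∀ s ∈ T, D j s ≤ l := fun j hj s hs =>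
    hD.le j (hJN j hj) s (hFN s (hT.2.1 s hs))
  have hself : cst D l J J = 0 := cst_self fun j hj => (hD.zero j (hJN j hj) j (hJN j hj)).2 rfl
  by_cases hopt : optN D l J F k = 0
  · -- optimum zero
    have hfJ : Feas F k J := feas_of_zero hJ hJ0 hT hDT
      (fun j hj s hs h0 => (hD.zero j (hJN j hj) s (hFN s (hT.2.1 s hs))).1 h0) (hTc.trans hopt)
    have : ∀ r : Fin t → Bool, cst D l J (P.kmed D l N J F k (List.ofFn r)) = 0 := by
      intro r
      have := kmed_le (P := P) (D := D) (l := l) (N := N) (J := J) (F := F) (k := k)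
        (r := List.ofFn r) (S := J) List.mem_cons_self hfJ
      omega
    refine hempty fun r => ?_
    rw [this, hopt]
    simp
  -- the scale
  have hopt0 : 0 < optN D l J F k := Nat.pos_of_ne_zero hopt
  obtain ⟨j0, hj0, hmax⟩ := Finset.exists_max_image J.toFinset (fun j => mins D l j T)
    (by simpa using hJ0)
  rw [List.mem_toFinset] at hj0
  have hmax' : ∀ j ∈ J, mins D l j T ≤ mins D l j0 T := fun j hj =>
    hmax j (List.mem_toFinset.2 hj)
  obtain ⟨i0, hi0, hR⟩ := exists_mins hT.1 (hDT j0 hj0)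
  rw [hR] at hmax'
  have hR0 : D j0 i0 ≠ 0 := by
    intro h0
    rw [h0] at hmax'
    have := cst_le_of_mins hmax'
    rw [hTc] at this
    omega
  have hRopt : D j0 i0 ≤ cst D l J T := by
    rw [← hR]
    exact mins_le_cst hj0
  have hcand : ∀ r S, S ∈ P.candsR D N J F k (D j0 i0) r → Feas F k S →
      cst D l J (P.kmed D l N J F k r) ≤ cst D l J S := fun r S hS hf =>
    kmed_le (mem_cands hj0 (hT.2.1 i0 hi0) hR0 hS) hf
  set R := D j0 i0 with hRdef
  have hRpos : 0 < R := Nat.pos_of_ne_zero hR0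
  set n := J.length with hn
  have hn0 : 0 < n := List.length_pos_iff.2 hJ0
  -- the fallback
  have hfb : ∀ r : List Bool, (cst D l J (P.kmed D l N J F k r) : ℝ) ≤
      3 * n * optN D l J F k := by
    intro r
    obtain ⟨h4, h5⟩ := fallback_spec hD hJ0 hJN hFN hT hmax'
    have h6 := (hcand r _ List.mem_cons_self h4).trans h5
    have h7 : cst D l J (P.kmed D l N J F k r) ≤ 3 * n * optN D l J F k := by
      refine h6.trans ?_
      rw [← hTc]
      calc 3 * R * n = 3 * n * R := by ring
        _ ≤ 3 * n * cst D l J T := Nat.mul_le_mul_left _ hRopt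
    exact_mod_cast h7
  -- the scaled metric
  set d := P.met D N n F.length R with hd
  set L := P.top n F.length with hL
  have hnu0 : 0 < P.nu n := Nat.mul_pos hE hn0
  have hcap0 : 0 < P.cap n := by unfold Data.cap; (clear * - hnu0 hn0; positivity)
  have hset : Setting d L J F :=
    { met := scal_met hD hRpos (hU _ _) hcap0 hnu0
      le := fun a b => scal_le _ _ _ _ _ _ _ _
      nodupJ := hJ
      nodupF := hF
      neJ := hJ0
      neF := hF0 }
  have hdvd3 : ∀ a b, Us3 J.length F.length ∣ d a b := fun a b =>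
    (hU3 _ _).trans (dvd_scal _ _ _ _ _ _ _ _)
  have hdvd2 : ∀ a b, Us2 J.length F.length ∣ d a b := fun a b =>
    (hU2 _ _).trans (dvd_scal _ _ _ _ _ _ _ _)
  have hpos : ∀ i, 1 ≤ i → i ≤ k → 0 < optN d L J F i := by
    intro i hi hik
    rw [Nat.pos_iff_ne_zero]
    intro h0
    obtain ⟨T', hT', -, hTc'⟩ := exists_optN d L J hF0 hi
    have hfJ : Feas F i J := feas_of_zero hJ hJ0 hT' (fun j _ s _ => hset.le j s)
      (fun j _ s _ h0 => (hset.met.zero j s).1 h0) (hTc'.trans h0)
    have := optN_le (d := D) (l := l) (J := J) (hfJ.mono hik)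
    omega
  -- good solutions
  set c' := max c2 c3 * (1 + 1 / (P.E : ℝ)) with hc'
  have hc'0 : 0 ≤ c' := by (clear * - hc1 hE; positivity)
  have hc'4 : c' < 4 := by nlinarith only [hc2', hinv1, hc1]
  have hTopt : (optN d L J F k : ℝ) ≤ cst d L J T := by exact_mod_cast optN_le hT
  have hgood : ∀ S, Feas F k S → (cst d L J S : ℝ) ≤ c' * optN d L J F k →
      (cst D l J S : ℝ) ≤ c' * (1 + 1 / P.E) * optN D l J F k := by
    intro S hS hSc
    rw [← hTc]
    exact scale_main (U := P.Us n F.length) hD hRpos (hU _ _) hE hJ0 hJN hFN hT hmax' hRopt hS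
      hc'0 hc'4 (hSc.trans (mul_le_mul_of_nonneg_left hTopt hc'0))
  have hcandD : ∀ r S, S ∈ P.candsD d L J F k r → Feas F k S →
      (cst d L J S : ℝ) ≤ c' * optN d L J F k →
      (cst D l J (P.kmed D l N J F k r) : ℝ) ≤ c' * (1 + 1 / P.E) * optN D l J F k := by
    intro r S hS hf hc
    have h4 := hcand r S (List.mem_cons_of_mem _ hS) hf
    have h5 : (cst D l J (P.kmed D l N J F k r) : ℝ) ≤ cst D l J S := by exact_mod_cast h4
    exact h5.trans (hgood S hf hc)
  -- conclusion in the deterministic cases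
  have hdet : (∀ r : List Bool, (cst D l J (P.kmed D l N J F k r) : ℝ) ≤
      c' * (1 + 1 / P.E) * optN D l J F k) →
      (Nat.card {r : Fin t → Bool // c' * (1 + 1 / P.E) *
        optN D l J F k < (cst D l J (P.kmed D l N J F k (List.ofFn r)) : ℝ)} : ℝ) ≤
      Real.exp (-((P.E : ℝ) * n)) * 2 ^ t := fun h => hempty fun r => h _
  -- the dichotomy
  have hsz : 0 < Nat.size n := Nat.size_pos.2 hn0
  have hm : 1 ≤ P.K3 * Nat.size n := Nat.mul_pos h3.pos hsz
  have hβ : (0 : ℝ) < 1 / (2 * (P.E : ℝ) * (P.K3 * Nat.size n : ℕ)) := by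
    have : (0 : ℝ) < (P.K3 * Nat.size n : ℕ) := by exact_mod_cast hm
    (clear * - hE hm; positivity)
  have hpb := pow_bound hm hE
  have hscale : ∀ x : ℝ, ∀ i, x ≤ max c2 c3 * optN d L J F i →
      (optN d L J F i : ℝ) ≤ (1 + 1 / (2 * (P.E : ℝ) * (P.K3 * Nat.size n : ℕ))) ^
        (P.K3 * Nat.size n) * optN d L J F k → x ≤ c' * optN d L J F k := by
    intro x i h4 h5
    calc x ≤ max c2 c3 * optN d L J F i := h4
      _ ≤ max c2 c3 * ((1 + 1 / (P.E : ℝ)) * optN d L J F k) := by
          refine mul_le_mul_of_nonneg_left (h5.trans ?_) (by linarith only [hc1])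
          exact mul_le_mul_of_nonneg_right hpb (Nat.cast_nonneg _)
      _ = _ := by rw [hc']; ring
  rcases dichotomy (o := fun i => (optN d L J F i : ℝ)) hβ (m := P.K3 * Nat.size n) hk hm
    (fun i hi hik => by exact_mod_cast hpos i hi hik)
    (fun i hi _ => by exact_mod_cast optN_anti d L J hF0 hi (Nat.le_succ i)) with ⟨h4, h5⟩ | ⟨i, hi1, hik, h5, h6⟩
  · -- pseudo-approximation with fewer centers
    refine hdet fun r => ?_
    obtain ⟨h6, -, h7⟩ := h3.spec d L J F (k - P.K3 * Nat.size n) hset (by (clear * - h4; omega)) (by omega) hdvd3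
    rw [← hn, Nat.sub_add_cancel h4.le] at h6
    refine hcandD r _ List.mem_cons_self h6 ?_
    refine hscale _ _ (h7.trans ?_) h5
    exact mul_le_mul_of_nonneg_right (le_max_right _ _) (Nat.cast_nonneg _)
  · rcases Nat.eq_or_lt_of_le hi1 with hi1' | hi2
    · -- one center
      refine hdet fun r => ?_
      obtain ⟨x, hx, hxc⟩ := exists_optN_one d L J hF0
      have hfx : Feas F k [x] := ⟨by simp, by simpa only [List.mem_cons, List.not_mem_nil, or_false, forall_eq] using hx, by simpa only [List.length_cons, List.length_nil, zero_add] using hk⟩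
      have hmem : [x] ∈ P.cands D N J F k r :=
        List.mem_cons_of_mem _ (List.mem_append_left _ (List.mem_map.2 ⟨x, hx, rfl⟩))
      have h8 : (cst D l J (P.kmed D l N J F k r) : ℝ) ≤ cst D l J [x] := by
        exact_mod_cast kmed_le hmem hfx
      refine h8.trans (hgood _ hfx ?_)
      refine hscale _ 1 ?_ (hi1' ▸ h5)
      rw [hxc]
      nlinarith only [hc1]
    · -- a stable instance
      have h6' : (1 + 1 / (2 * (P.E : ℝ) * (P.K3 * Nat.size n : ℕ))) * optN d L J F i ≤
          optN d L J F (i - 1) := by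
        rcases h6 with h6 | h6
        · omega
        · exact h6
      obtain ⟨h8, h9, h10⟩ := h3.spec d L J F i hset hi1 (hik.trans hkF) hdvd3
      set S0 := P.pseudo d L J F i with hS0
      have h11 := h2.spec d L J F i S0 hset hi2 (hik.trans hkF) hdvd2 (hpos i hi1 hik)
        (by
          convert h6' using 3
          push_cast
          ring) h8 h9
        (h10.trans (mul_le_mul_of_nonneg_right h3.lt_two.le (Nat.cast_nonneg _)))
      set G : Set (List Bool) := {ρ | Feas F i (P.trial d L J F i S0 ρ) ∧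
        (cst d L J (P.trial d L J F i S0 ρ) : ℝ) ≤ c2 * optN d L J F i} with hG
      have hA : 0 < (2 * (n + F.length)) ^ P.K2 := by (clear * - hn0; positivity)
      have hbad := card_bad (t := t) (m := P.reps n F.length) (L := P.len n F.length) ht hA
        (G := G) h11
      have hexp : -((P.reps n F.length : ℕ) : ℝ) / ((2 * (n + F.length)) ^ P.K2 : ℕ) =
          -((P.E : ℝ) * n) := by
        have h12 : (((2 * (n + F.length)) ^ P.K2 : ℕ) : ℝ) ≠ 0 := by exact_mod_cast hA.ne'
        rw [div_eq_iff h12]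
        unfold Data.reps
        push_cast
        ring
      rw [hexp] at hbad
      have himp : ∀ r : Fin t → Bool, c' * (1 + 1 / P.E) * optN D l J F k <
          (cst D l J (P.kmed D l N J F k (List.ofFn r)) : ℝ) →
          ∀ q < P.reps n F.length, ((List.ofFn r).drop (q * P.len n F.length)).take
            (P.len n F.length) ∉ G := by
        intro r hr q hq hqG
        refine absurd ?_ (not_le.2 hr)
        refine hcandD _ _ ?_ (hqG.1.mono hik) ?_
        · refine List.mem_cons_of_mem _ (List.mem_flatMap.2 ⟨i - 1, List.mem_range.2 (by omega), ?_⟩)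
          refine List.mem_map.2 ⟨_, List.mem_map.2 ⟨q, List.mem_range.2 hq, rfl⟩, ?_⟩
          rw [Nat.sub_add_cancel hi1]
        · refine hscale _ i (hqG.2.trans ?_) h5
          exact mul_le_mul_of_nonneg_right (le_max_left _ _) (Nat.cast_nonneg _)
      refine le_trans ?_ hbad
      have hcard : Nat.card {r : Fin t → Bool // c' * (1 + 1 / P.E) * optN D l J F k <
          (cst D l J (P.kmed D l N J F k (List.ofFn r)) : ℝ)} ≤
          Nat.card {r : Fin t → Bool // ∀ q < P.reps n F.length,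
            ((List.ofFn r).drop (q * P.len n F.length)).take (P.len n F.length) ∉ G} :=
        Nat.card_le_card_of_injective (fun r => ⟨r.1, himp r.1 r.2⟩)
          (fun a b h => Subtype.ext (congrArg (fun z => z.1) h))
      exact_mod_cast hcard

end Vale.Agent.P334.Alg.One.H220
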